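import Vale.Agent.P154.NegEnd.EnvDefs

/-!
P154 NegEnd: certificate of envelope Q (generated), part 1: kernel leaves.
-/

namespace Vale.Agent.P154.NegEnd

open PolyCheck

theorem leavesEnvQ1 :
    (checkAlt 2 (envAlts 9 eEnvQ [10616832, 106168320, 1061683200]) (.cut 0 (.leaf 0) (.leaf 1)) [⟨5, 6, 32⟩, ⟨12, 13, 32⟩] = true) ∧
    (checkAlt 2 (envAlts 9 eEnvQ [10616832, 106168320, 1061683200]) (.leaf 1) [⟨5, 6, 32⟩, ⟨13, 14, 32⟩] = true) ∧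
    (checkAlt 2 (envAlts 9 eEnvQ [10616832, 106168320, 1061683200]) (.cut 0 (.leaf 0) (.leaf 1)) [⟨2, 3, 16⟩, ⟨7, 8, 16⟩] = true) ∧
    (checkAlt 2 (envAlts 9 eEnvQ [10616832, 106168320, 1061683200]) (.leaf 1) [⟨3, 4, 16⟩, ⟨3, 4, 8⟩] = true) ∧
    (checkAlt 2 (envAlts 9 eEnvQ [10616832, 106168320, 1061683200]) (.leaf 0) [⟨4, 5, 16⟩, ⟨0, 1, 16⟩] = true) ∧
    (checkAlt 2 (envAlts 9 eEnvQ [10616832, 106168320, 1061683200]) (.leaf 0) [⟨16, 17, 64⟩, ⟨4, 5, 64⟩] = true) ∧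
    (checkAlt 2 (envAlts 9 eEnvQ [10616832, 106168320, 1061683200]) (.leaf 0) [⟨32, 33, 128⟩, ⟨5, 6, 64⟩] = true) ∧
    (checkAlt 2 (envAlts 9 eEnvQ [10616832, 106168320, 1061683200]) (.leaf 0) [⟨66, 67, 256⟩, ⟨10, 11, 128⟩] = true) ∧
    (checkAlt 2 (envAlts 9 eEnvQ [10616832, 106168320, 1061683200]) (.cut 1 (.leaf 0) (.leaf 2)) [⟨67, 68, 256⟩, ⟨10, 11, 128⟩] = true) ∧
    (checkAlt 2 (envAlts 9 eEnvQ [10616832, 106168320, 1061683200]) (.cut 0 (.leaf 0) (.leaf 2)) [⟨66, 67, 256⟩, ⟨22, 23, 256⟩] = true) ∧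
    (checkAlt 2 (envAlts 9 eEnvQ [10616832, 106168320, 1061683200]) (.leaf 1) [⟨66, 67, 256⟩, ⟨23, 24, 256⟩] = true) ∧
    (checkAlt 2 (envAlts 9 eEnvQ [10616832, 106168320, 1061683200]) (.leaf 1) [⟨67, 68, 256⟩, ⟨11, 12, 128⟩] = true) ∧
    (checkAlt 2 (envAlts 9 eEnvQ [10616832, 106168320, 1061683200]) (.cut 0 (.leaf 0) (.leaf 2)) [⟨17, 18, 64⟩, ⟨4, 5, 64⟩] = true) ∧
    (checkAlt 2 (envAlts 9 eEnvQ [10616832, 106168320, 1061683200]) (.leaf 2) [⟨17, 18, 64⟩, ⟨5, 6, 64⟩] = true) ∧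
    (checkAlt 2 (envAlts 9 eEnvQ [10616832, 106168320, 1061683200]) (.cut 1 (.leaf 0) (.leaf 2)) [⟨64, 65, 256⟩, ⟨12, 13, 128⟩] = true) ∧
    (checkAlt 2 (envAlts 9 eEnvQ [10616832, 106168320, 1061683200]) (.leaf 2) [⟨65, 66, 256⟩, ⟨12, 13, 128⟩] = true) ∧
    (checkAlt 2 (envAlts 9 eEnvQ [10616832, 106168320, 1061683200]) (.leaf 1) [⟨32, 33, 128⟩, ⟨13, 14, 128⟩] = true) ∧
    (checkAlt 2 (envAlts 9 eEnvQ [10616832, 106168320, 1061683200]) (.leaf 1) [⟨33, 34, 128⟩, ⟨6, 7, 64⟩] = true) ∧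
    (checkAlt 2 (envAlts 9 eEnvQ [10616832, 106168320, 1061683200]) (.leaf 1) [⟨16, 17, 64⟩, ⟨7, 8, 64⟩] = true) ∧
    (checkAlt 2 (envAlts 9 eEnvQ [10616832, 106168320, 1061683200]) (.leaf 1) [⟨17, 18, 64⟩, ⟨3, 4, 32⟩] = true) ∧
    (checkAlt 2 (envAlts 9 eEnvQ [10616832, 106168320, 1061683200]) (.leaf 3) [⟨9, 10, 32⟩, ⟨1, 2, 16⟩] = true) := by
  refine ⟨?_, ?_, ?_, ?_, ?_, ?_, ?_, ?_, ?_, ?_, ?_, ?_, ?_, ?_, ?_, ?_, ?_, ?_, ?_, ?_, ?_⟩ <;> decide +kernel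

end Vale.Agent.P154.NegEnd
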