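import Vale.Agent.P154.NegEnd.EnvDefs

/-!
P154 NegEnd: certificate of envelope Q (generated), part 2: kernel leaves.
-/

namespace Vale.Agent.P154.NegEnd

open PolyCheck

theorem leavesEnvQ2 :
    (checkAlt 2 (envAlts 9 eEnvQ [10616832, 106168320, 1061683200]) (.leaf 2) [⟨10, 11, 32⟩, ⟨0, 1, 16⟩] = true) ∧
    (checkAlt 2 (envAlts 9 eEnvQ [10616832, 106168320, 1061683200]) (.cut 1 (.leaf 0) (.leaf 1)) [⟨11, 12, 32⟩, ⟨0, 1, 16⟩] = true) ∧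
    (checkAlt 2 (envAlts 9 eEnvQ [10616832, 106168320, 1061683200]) (.leaf 1) [⟨5, 6, 16⟩, ⟨1, 2, 16⟩] = true) ∧
    (checkAlt 2 (envAlts 9 eEnvQ [10616832, 106168320, 1061683200]) (.leaf 1) [⟨2, 3, 8⟩, ⟨1, 2, 8⟩] = true) ∧
    (checkAlt 2 (envAlts 9 eEnvQ [10616832, 106168320, 1061683200]) (.leaf 3) [⟨12, 13, 32⟩, ⟨0, 1, 16⟩] = true) ∧
    (checkAlt 2 (envAlts 9 eEnvQ [10616832, 106168320, 1061683200]) (.leaf 3) [⟨26, 27, 64⟩, ⟨0, 1, 32⟩] = true) ∧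
    (checkAlt 2 (envAlts 9 eEnvQ [10616832, 106168320, 1061683200]) (.cut 0 (.leaf 0) (.leaf 1)) [⟨108, 109, 256⟩, ⟨0, 1, 256⟩] = true) ∧
    (checkAlt 2 (envAlts 9 eEnvQ [10616832, 106168320, 1061683200]) (.leaf 1) [⟨108, 109, 256⟩, ⟨1, 2, 256⟩] = true) ∧
    (checkAlt 2 (envAlts 9 eEnvQ [10616832, 106168320, 1061683200]) (.leaf 1) [⟨109, 110, 256⟩, ⟨0, 1, 128⟩] = true) ∧
    (checkAlt 2 (envAlts 9 eEnvQ [10616832, 106168320, 1061683200]) (.leaf 1) [⟨54, 55, 128⟩, ⟨1, 2, 128⟩] = true) ∧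
    (checkAlt 2 (envAlts 9 eEnvQ [10616832, 106168320, 1061683200]) (.leaf 1) [⟨55, 56, 128⟩, ⟨0, 1, 64⟩] = true) ∧
    (checkAlt 2 (envAlts 9 eEnvQ [10616832, 106168320, 1061683200]) (.leaf 1) [⟨27, 28, 64⟩, ⟨1, 2, 64⟩] = true) ∧
    (checkAlt 2 (envAlts 9 eEnvQ [10616832, 106168320, 1061683200]) (.leaf 1) [⟨13, 14, 32⟩, ⟨1, 2, 32⟩] = true) ∧
    (checkAlt 2 (envAlts 9 eEnvQ [10616832, 106168320, 1061683200]) (.leaf 1) [⟨6, 7, 16⟩, ⟨1, 2, 16⟩] = true) ∧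
    (checkAlt 2 (envAlts 9 eEnvQ [10616832, 106168320, 1061683200]) (.leaf 1) [⟨7, 8, 16⟩, ⟨0, 1, 8⟩] = true) ∧
    (checkAlt 2 (envAlts 9 eEnvQ [10616832, 106168320, 1061683200]) (.leaf 1) [⟨3, 4, 8⟩, ⟨1, 2, 8⟩] = true) ∧
    (checkAlt 2 (envAlts 9 eEnvQ [10616832, 106168320, 1061683200]) (.leaf 1) [⟨1, 2, 4⟩, ⟨1, 2, 4⟩] = true) ∧
    (checkAlt 2 (envAlts 9 eEnvQ [10616832, 106168320, 1061683200]) (.leaf 0) [⟨0, 1, 8⟩, ⟨2, 3, 4⟩] = true) ∧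
    (checkAlt 2 (envAlts 9 eEnvQ [10616832, 106168320, 1061683200]) (.leaf 0) [⟨8, 9, 64⟩, ⟨16, 17, 32⟩] = true) ∧
    (checkAlt 2 (envAlts 9 eEnvQ [10616832, 106168320, 1061683200]) (.cut 0 (.leaf 0) (.leaf 1)) [⟨9, 10, 64⟩, ⟨32, 33, 64⟩] = true) ∧
    (checkAlt 2 (envAlts 9 eEnvQ [10616832, 106168320, 1061683200]) (.leaf 2) [⟨9, 10, 64⟩, ⟨33, 34, 64⟩] = true) := by
  refine ⟨?_, ?_, ?_, ?_, ?_, ?_, ?_, ?_, ?_, ?_, ?_, ?_, ?_, ?_, ?_, ?_, ?_, ?_, ?_, ?_, ?_⟩ <;> decide +kernel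

end Vale.Agent.P154.NegEnd
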