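import Vale.Agent.P154.NegEnd.EnvDefs

/-!
P154 NegEnd: certificate of envelope Q (generated), part 3: kernel leaves.
-/

namespace Vale.Agent.P154.NegEnd

open PolyCheck

theorem leavesEnvQ3 :
    (checkAlt 2 (envAlts 9 eEnvQ [10616832, 106168320, 1061683200]) (.cut 0 (.leaf 0) (.leaf 1)) [⟨4, 5, 32⟩, ⟨17, 18, 32⟩] = true) ∧
    (checkAlt 2 (envAlts 9 eEnvQ [10616832, 106168320, 1061683200]) (.leaf 1) [⟨5, 6, 32⟩, ⟨8, 9, 16⟩] = true) ∧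
    (checkAlt 2 (envAlts 9 eEnvQ [10616832, 106168320, 1061683200]) (.cut 0 (.leaf 0) (.leaf 1)) [⟨4, 5, 32⟩, ⟨18, 19, 32⟩] = true) ∧
    (checkAlt 2 (envAlts 9 eEnvQ [10616832, 106168320, 1061683200]) (.leaf 0) [⟨8, 9, 64⟩, ⟨38, 39, 64⟩] = true) ∧
    (checkAlt 2 (envAlts 9 eEnvQ [10616832, 106168320, 1061683200]) (.cut 0 (.leaf 0) (.leaf 1)) [⟨8, 9, 64⟩, ⟨39, 40, 64⟩] = true) ∧
    (checkAlt 2 (envAlts 9 eEnvQ [10616832, 106168320, 1061683200]) (.leaf 1) [⟨9, 10, 64⟩, ⟨19, 20, 32⟩] = true) ∧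
    (checkAlt 2 (envAlts 9 eEnvQ [10616832, 106168320, 1061683200]) (.leaf 1) [⟨5, 6, 32⟩, ⟨9, 10, 16⟩] = true) ∧
    (checkAlt 2 (envAlts 9 eEnvQ [10616832, 106168320, 1061683200]) (.leaf 1) [⟨3, 4, 16⟩, ⟨4, 5, 8⟩] = true) ∧
    (checkAlt 2 (envAlts 9 eEnvQ [10616832, 106168320, 1061683200]) (.cut 0 (.leaf 0) (.leaf 1)) [⟨8, 9, 64⟩, ⟨40, 41, 64⟩] = true) ∧
    (checkAlt 2 (envAlts 9 eEnvQ [10616832, 106168320, 1061683200]) (.cut 0 (.leaf 0) (.leaf 1)) [⟨8, 9, 64⟩, ⟨41, 42, 64⟩] = true) ∧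
    (checkAlt 2 (envAlts 9 eEnvQ [10616832, 106168320, 1061683200]) (.leaf 1) [⟨9, 10, 64⟩, ⟨20, 21, 32⟩] = true) ∧
    (checkAlt 2 (envAlts 9 eEnvQ [10616832, 106168320, 1061683200]) (.cut 0 (.leaf 0) (.leaf 1)) [⟨8, 9, 64⟩, ⟨42, 43, 64⟩] = true) ∧
    (checkAlt 2 (envAlts 9 eEnvQ [10616832, 106168320, 1061683200]) (.cut 0 (.leaf 0) (.leaf 1)) [⟨8, 9, 64⟩, ⟨43, 44, 64⟩] = true) ∧
    (checkAlt 2 (envAlts 9 eEnvQ [10616832, 106168320, 1061683200]) (.leaf 1) [⟨9, 10, 64⟩, ⟨21, 22, 32⟩] = true) ∧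
    (checkAlt 2 (envAlts 9 eEnvQ [10616832, 106168320, 1061683200]) (.leaf 1) [⟨5, 6, 32⟩, ⟨10, 11, 16⟩] = true) ∧
    (checkAlt 2 (envAlts 9 eEnvQ [10616832, 106168320, 1061683200]) (.leaf 1) [⟨2, 3, 16⟩, ⟨11, 12, 16⟩] = true) ∧
    (checkAlt 2 (envAlts 9 eEnvQ [10616832, 106168320, 1061683200]) (.leaf 1) [⟨3, 4, 16⟩, ⟨5, 6, 8⟩] = true) ∧
    (checkAlt 2 (envAlts 9 eEnvQ [10616832, 106168320, 1061683200]) (.cut 0 (.leaf 0) (.leaf 0)) [⟨0, 1, 8⟩, ⟨6, 7, 8⟩] = true) ∧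
    (checkAlt 2 (envAlts 9 eEnvQ [10616832, 106168320, 1061683200]) (.cut 0 (.leaf 0) (.leaf 0)) [⟨0, 1, 8⟩, ⟨7, 8, 8⟩] = true) ∧
    (checkAlt 2 (envAlts 9 eEnvQ [10616832, 106168320, 1061683200]) (.leaf 0) [⟨1, 2, 8⟩, ⟨3, 4, 4⟩] = true) ∧
    (checkAlt 2 (envAlts 9 eEnvQ [10616832, 106168320, 1061683200]) (.leaf 1) [⟨1, 2, 4⟩, ⟨1, 2, 2⟩] = true) ∧
    (checkAlt 2 (envAlts 9 eEnvQ [10616832, 106168320, 1061683200]) (.leaf 1) [⟨1, 2, 2⟩, ⟨0, 1, 1⟩] = true) := by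
  refine ⟨?_, ?_, ?_, ?_, ?_, ?_, ?_, ?_, ?_, ?_, ?_, ?_, ?_, ?_, ?_, ?_, ?_, ?_, ?_, ?_, ?_, ?_⟩ <;> decide +kernel

end Vale.Agent.P154.NegEnd
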