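import Vale.Agent.P154.NegEnd.EnvDefs

/-!
P154 NegEnd: certificate of envelope Q (generated), part 0: kernel leaves.
-/

namespace Vale.Agent.P154.NegEnd

open PolyCheck

theorem leavesEnvQ0 :
    (checkAlt 2 (envAlts 9 eEnvQ [10616832, 106168320, 1061683200]) (.leaf 0) [⟨0, 1, 8⟩, ⟨0, 1, 4⟩] = true) ∧
    (checkAlt 2 (envAlts 9 eEnvQ [10616832, 106168320, 1061683200]) (.leaf 0) [⟨2, 3, 16⟩, ⟨0, 1, 8⟩] = true) ∧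
    (checkAlt 2 (envAlts 9 eEnvQ [10616832, 106168320, 1061683200]) (.leaf 0) [⟨3, 4, 16⟩, ⟨0, 1, 16⟩] = true) ∧
    (checkAlt 2 (envAlts 9 eEnvQ [10616832, 106168320, 1061683200]) (.leaf 0) [⟨6, 7, 32⟩, ⟨1, 2, 16⟩] = true) ∧
    (checkAlt 2 (envAlts 9 eEnvQ [10616832, 106168320, 1061683200]) (.leaf 0) [⟨7, 8, 32⟩, ⟨2, 3, 32⟩] = true) ∧
    (checkAlt 2 (envAlts 9 eEnvQ [10616832, 106168320, 1061683200]) (.leaf 0) [⟨14, 15, 64⟩, ⟨3, 4, 32⟩] = true) ∧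
    (checkAlt 2 (envAlts 9 eEnvQ [10616832, 106168320, 1061683200]) (.leaf 0) [⟨15, 16, 64⟩, ⟨6, 7, 64⟩] = true) ∧
    (checkAlt 2 (envAlts 9 eEnvQ [10616832, 106168320, 1061683200]) (.cut 0 (.leaf 0) (.leaf 2)) [⟨15, 16, 64⟩, ⟨7, 8, 64⟩] = true) ∧
    (checkAlt 2 (envAlts 9 eEnvQ [10616832, 106168320, 1061683200]) (.leaf 0) [⟨2, 3, 16⟩, ⟨1, 2, 8⟩] = true) ∧
    (checkAlt 2 (envAlts 9 eEnvQ [10616832, 106168320, 1061683200]) (.leaf 0) [⟨6, 7, 32⟩, ⟨2, 3, 16⟩] = true) ∧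
    (checkAlt 2 (envAlts 9 eEnvQ [10616832, 106168320, 1061683200]) (.cut 0 (.leaf 0) (.leaf 2)) [⟨7, 8, 32⟩, ⟨4, 5, 32⟩] = true) ∧
    (checkAlt 2 (envAlts 9 eEnvQ [10616832, 106168320, 1061683200]) (.leaf 3) [⟨7, 8, 32⟩, ⟨5, 6, 32⟩] = true) ∧
    (checkAlt 2 (envAlts 9 eEnvQ [10616832, 106168320, 1061683200]) (.cut 1 (.leaf 0) (.leaf 2)) [⟨6, 7, 32⟩, ⟨3, 4, 16⟩] = true) ∧
    (checkAlt 2 (envAlts 9 eEnvQ [10616832, 106168320, 1061683200]) (.leaf 1) [⟨7, 8, 32⟩, ⟨3, 4, 16⟩] = true) ∧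
    (checkAlt 2 (envAlts 9 eEnvQ [10616832, 106168320, 1061683200]) (.leaf 0) [⟨0, 1, 8⟩, ⟨1, 2, 4⟩] = true) ∧
    (checkAlt 2 (envAlts 9 eEnvQ [10616832, 106168320, 1061683200]) (.leaf 0) [⟨2, 3, 16⟩, ⟨4, 5, 16⟩] = true) ∧
    (checkAlt 2 (envAlts 9 eEnvQ [10616832, 106168320, 1061683200]) (.leaf 0) [⟨4, 5, 32⟩, ⟨5, 6, 16⟩] = true) ∧
    (checkAlt 2 (envAlts 9 eEnvQ [10616832, 106168320, 1061683200]) (.leaf 0) [⟨5, 6, 32⟩, ⟨10, 11, 32⟩] = true) ∧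
    (checkAlt 2 (envAlts 9 eEnvQ [10616832, 106168320, 1061683200]) (.cut 0 (.leaf 0) (.leaf 1)) [⟨5, 6, 32⟩, ⟨11, 12, 32⟩] = true) ∧
    (checkAlt 2 (envAlts 9 eEnvQ [10616832, 106168320, 1061683200]) (.leaf 3) [⟨3, 4, 16⟩, ⟨2, 3, 8⟩] = true) ∧
    (checkAlt 2 (envAlts 9 eEnvQ [10616832, 106168320, 1061683200]) (.leaf 0) [⟨4, 5, 32⟩, ⟨6, 7, 16⟩] = true) := by
  refine ⟨?_, ?_, ?_, ?_, ?_, ?_, ?_, ?_, ?_, ?_, ?_, ?_, ?_, ?_, ?_, ?_, ?_, ?_, ?_, ?_, ?_⟩ <;> decide +kernel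

end Vale.Agent.P154.NegEnd
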